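import Vale.Agent.P274.Full.Tool.Map
import Mathlib.Algebra.MvPolynomial.Funext
import Mathlib.Algebra.MvPolynomial.PDeriv
import Mathlib.Analysis.Calculus.Deriv.Pi
import Mathlib.Analysis.Calculus.ImplicitContDiff
import Mathlib.Analysis.Calculus.LocalExtr.Rolle
import Mathlib.Topology.Baire.CompleteMetrizable

/-!
A semialgebraic function on an open set is smooth on a dense open subset.

Its graph lies in the zero set of a polynomial `Q`; on countably many semialgebraic sets covering
an open dense part of the domain the value is the only zero, in a rational interval, of some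
derivative of `Q` in the last variable, and one of these sets has interior in every open set.
-/

open MvPolynomial Set Filter Topology

namespace Vale.Agent.P274.Full

noncomputable section

variable {ι : Type} [Fintype ι]

theorem contDiff_eval_poly {σ : Type*} [Fintype σ] {n : WithTop ℕ∞} (p : MvPolynomial σ ℝ) :
    ContDiff ℝ n fun y : σ → ℝ => eval y p := by
  induction p using MvPolynomial.induction_on with
  | C a => simpa using contDiff_const
  | add p q hp hq => simpa using hp.add hq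
  | mul_X p j hp => simpa using hp.mul (contDiff_apply ℝ ℝ j)

theorem hasFDerivAt_eval_poly {σ : Type*} [Fintype σ] (p : MvPolynomial σ ℝ) (x : σ → ℝ) :
    HasFDerivAt (fun y : σ → ℝ => eval y p)
      (∑ a, eval x (pderiv a p) • ContinuousLinearMap.proj (R := ℝ) (φ := fun _ : σ => ℝ) a) x := by
  classical
  induction p using MvPolynomial.induction_on with
  | C a => simpa using hasFDerivAt_const a x
  | add p q hp hq =>
    simp only [map_add, add_smul, Finset.sum_add_distrib]
    exact hp.add hq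
  | mul_X p j hp =>
    simp only [map_mul, eval_X]
    refine (hp.mul (hasFDerivAt_apply j x)).congr_fderiv ?_
    ext v
    simp only [add_apply, smul_apply, FunLike.coe_sum, Finset.sum_apply, pderiv_mul, pderiv_X,
      Pi.single_apply, map_add, map_mul, ContinuousLinearMap.proj_apply, smul_eq_mul, eval_X,
      Finset.mul_sum, apply_ite (eval x), map_zero, mul_ite, mul_one, mul_zero, add_mul,
      ite_mul, zero_mul, Finset.sum_add_distrib, Finset.sum_ite_eq, Finset.mem_univ, if_true]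
    rw [add_comm]
    congr 1
    exact Finset.sum_congr rfl fun a _ => by ring

/-- The derivative in the last variable. -/
theorem hasDerivAt_eval_last (p : MvPolynomial (ι ⊕ Unit) ℝ) (x : ι → ℝ) (t : ℝ) :
    HasDerivAt (fun s => eval (Sum.elim x fun _ => s) p)
      (eval (Sum.elim x fun _ => t) (pderiv (Sum.inr ()) p)) t := by
  classical
  have h : HasDerivAt (fun s : ℝ => (Sum.elim x fun _ => s : ι ⊕ Unit → ℝ))
      (Pi.single (Sum.inr ()) 1) t := by
    have e : (fun s : ℝ => (Sum.elim x fun _ => s : ι ⊕ Unit → ℝ)) =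
        Function.update (Sum.elim x fun _ => t) (Sum.inr ()) := by
      funext s i
      rcases i with i | u <;> simp [Function.update]
    rw [e]
    exact hasDerivAt_update _ _ t
  refine ((hasFDerivAt_eval_poly p _).comp_hasDerivAt t h).congr_deriv ?_
  simp

theorem exists_pderiv_iterate_eq_zero {σ : Type*} (i : σ) (p : MvPolynomial σ ℝ) :
    ∃ m, (pderiv i)^[m] p = 0 := by
  classical
  induction p using MvPolynomial.induction_on' with
  | monomial s a =>
    obtain ⟨n, hn⟩ : ∃ n, s i = n := ⟨_, rfl⟩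
    refine ⟨n + 1, ?_⟩
    induction n generalizing s a with
    | zero => simp [pderiv_monomial, hn]
    | succ n ih =>
      rw [Function.iterate_succ_apply, pderiv_monomial]
      exact ih _ _ (by simp [hn])
  | add p q hp hq =>
    obtain ⟨m, hm⟩ := hp
    obtain ⟨m', hm'⟩ := hq
    refine ⟨max m m', ?_⟩
    have hz : ∀ k, ∀ r : MvPolynomial σ ℝ, ∀ j ≤ k, (pderiv i)^[j] r = 0 → (pderiv i)^[k] r = 0 := by
      intro k r j hj h
      obtain ⟨d, rfl⟩ := Nat.exists_eq_add_of_le hj
      rw [add_comm, Function.iterate_add_apply, h]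
      exact Function.iterate_fixed (map_zero _) d
    rw [iterate_map_add, hz _ p m (le_max_left _ _) hm, hz _ q m' (le_max_right _ _) hm', add_zero]

theorem poly_eq_zero_of_isOpen {σ : Type*} [Fintype σ] {p : MvPolynomial σ ℝ} {W : Set (σ → ℝ)}
    (hW : IsOpen W) (hne : W.Nonempty) (h : ∀ y ∈ W, eval y p = 0) : p = 0 := by
  obtain ⟨y, hy⟩ := hne
  obtain ⟨r, hr, hball⟩ := Metric.isOpen_iff.1 hW y hy
  refine MvPolynomial.funext_set (fun i => Metric.ball (y i) r)
    (fun i => ?_) fun z hz => ?_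
  · rw [Real.ball_eq_Ioo]
    exact Set.Ioo_infinite (by linarith)
  · rw [map_zero]
    exact h z (hball (by rw [ball_pi _ hr]; exact hz))

/-- A semialgebraic set without interior lies in the zero set of a nonzero polynomial. -/
theorem SA.exists_defining {G : Set (ι → ℝ)} (hG : SA G) (h : interior G = ∅) :
    ∃ Q : MvPolynomial ι ℝ, Q ≠ 0 ∧ ∀ z ∈ G, eval z Q = 0 := by
  classical
  obtain ⟨l, P, T, hT⟩ := hG
  refine ⟨∏ i ∈ Finset.univ.filter (fun i => P i ≠ 0), P i,
    Finset.prod_ne_zero_iff.2 fun i hi => (Finset.mem_filter.1 hi).2, fun z hz => ?_⟩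
  by_contra hne
  simp only [map_prod, Finset.prod_ne_zero_iff, Finset.mem_filter, Finset.mem_univ, true_and] at hne
  have key : ∀ᶠ y in 𝓝 z, y ∈ G := by
    have : ∀ i, ∀ᶠ y in 𝓝 z,
        SignType.sign (eval y (P i)) = SignType.sign (eval z (P i)) := by
      intro i
      by_cases hi : P i = 0
      · simp [hi]
      · rcases lt_or_gt_of_ne (hne i hi) with h' | h'
        · filter_upwards [((contDiff_eval_poly (n := 0) (P i)).continuous.tendsto z).eventually
            (gt_mem_nhds h')] with y hy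
          rw [sign_neg hy, sign_neg h']
        · filter_upwards [((contDiff_eval_poly (n := 0) (P i)).continuous.tendsto z).eventually
            (lt_mem_nhds h')] with y hy
          rw [sign_pos hy, sign_pos h']
    filter_upwards [eventually_all.2 this] with y hy
    rw [hT] at hz ⊢
    simpa only [hy] using hz
  exact (Set.notMem_empty z) (h ▸ mem_interior_iff_mem_nhds.2 key)

omit [Fintype ι] in
theorem SAFun.interior_graph {A : Set (ι → ℝ)} (f : (ι → ℝ) → ℝ) :
    interior {x : ι ⊕ Unit → ℝ | x ∘ Sum.inl ∈ A ∧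
      x ∘ Sum.inr = fun _ => f (x ∘ Sum.inl)} = ∅ := by
  classical
  refine eq_empty_iff_forall_notMem.2 fun z hz => ?_
  have hc : Tendsto (fun s : ℝ => z + s • (Pi.single (Sum.inr ()) 1 : ι ⊕ Unit → ℝ)) (𝓝 0) (𝓝 z) :=
    Continuous.tendsto' (by fun_prop) _ _ (by simp)
  have h := hc.eventually (mem_interior_iff_mem_nhds.1 hz)
  obtain ⟨r, hr, hball⟩ := Metric.eventually_nhds_iff.1 h
  have h1 := hball (y := r / 2) (by rw [Real.dist_eq, sub_zero, abs_of_pos] <;> linarith)
  have h2 := hball (y := 0) (by simpa using hr)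
  have e1 := congrFun h1.2 ()
  have e2 := congrFun h2.2 ()
  simp [Function.comp_def] at e1 e2
  linarith

variable (hp : SAProjStmt) (hi : SAInteriorStmt)
include hp hi

/-- In every open subset of the domain there is an open set where the function is smooth. -/
theorem SAFun.exists_smooth_subset {A : Set (ι → ℝ)} {f : (ι → ℝ) → ℝ} (hf : SAFun A f)
    {V : Set (ι → ℝ)} (hV : IsOpen V) (hVA : V ⊆ A) (hne : V.Nonempty) :
    ∃ W ⊆ V, IsOpen W ∧ W.Nonempty ∧ ∀ x ∈ W, ContDiffAt ℝ (⊤ : ℕ∞) f x := by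
  classical
  obtain ⟨Q, hQ, hQ0⟩ := SA.exists_defining (G := {x : ι ⊕ Unit → ℝ |
    x ∘ Sum.inl ∈ A ∧ x ∘ Sum.inr = fun _ => f (x ∘ Sum.inl)}) hf (SAFun.interior_graph f)
  set Qd : ℕ → MvPolynomial (ι ⊕ Unit) ℝ := fun m => (pderiv (Sum.inr ()))^[m] Q with hQd
  set pt : (ι → ℝ) → ℝ → ι ⊕ Unit → ℝ := fun x t => Sum.elim x fun _ => t with hpt
  have hpt_cont : Continuous fun u : (ι → ℝ) × ℝ => pt u.1 u.2 := by
    refine continuous_pi fun i => ?_
    rcases i with i | u
    · exact (continuous_apply i).comp continuous_fst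
    · exact continuous_snd
  have hder : ∀ m x t, HasDerivAt (fun s => eval (pt x s) (Qd m))
      (eval (pt x t) (Qd (m + 1))) t := fun m x t => by
    simp only [hQd, Function.iterate_succ_apply']
    exact hasDerivAt_eval_last _ x t
  -- the points over which `Q` does not vanish identically
  set V₀ := V ∩ {x | ∀ t, eval (pt x t) Q = 0}ᶜ with hV₀
  have hBad : IsClosed {x : ι → ℝ | ∀ t, eval (pt x t) Q = 0} := by
    simp only [Set.ofPred_forall]
    exact isClosed_iInter fun t => isClosed_eq (((contDiff_eval_poly (n := 0) Q).continuous).comp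
      (hpt_cont.comp (continuous_id.prodMk continuous_const))) continuous_const
  have hV₀o : IsOpen V₀ := hV.inter hBad.isOpen_compl
  have hV₀ne : V₀.Nonempty := by
    by_contra h
    refine hQ (poly_eq_zero_of_isOpen (hV.preimage
      (show Continuous fun y : ι ⊕ Unit → ℝ => y ∘ Sum.inl by fun_prop)) ?_ fun y hy => ?_)
    · obtain ⟨x, hx⟩ := hne
      exact ⟨pt x 0, by simpa [pt] using hx⟩
    · by_contra hy0
      refine h ⟨y ∘ Sum.inl, hy, fun hb => hy0 ?_⟩
      have := hb (y (Sum.inr ()))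
      rwa [show pt (y ∘ Sum.inl) (y (Sum.inr ())) = y by
        funext i; rcases i with i | u <;> rfl] at this
  -- countably many semialgebraic pieces
  set E : ℕ × ℚ × ℚ → Set (ι → ℝ) := fun k =>
    {x | x ∈ A ∧ eval (pt x (f x)) (Qd k.1) = 0 ∧ (k.2.1 : ℝ) < f x ∧ f x < k.2.2 ∧
      ∀ t : ℝ, ((k.2.1 : ℝ) ≤ t ∧ t ≤ k.2.2) → eval (pt x t) (Qd (k.1 + 1)) ≠ 0} with hE
  have hESA : ∀ k, SA (E k) := by
    intro k
    have h1 := (((hf.inter (SA.eq_zero (Qd k.1))).inter
      (SA.lt (C (k.2.1 : ℝ)) (X (Sum.inr ())))).inter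
      (SA.lt (X (Sum.inr ())) (C (k.2.2 : ℝ)))).exists_real hp
    have h2 := (((SA.le (C (k.2.1 : ℝ)) (X (Sum.inr ()))).and
      (SA.le (X (Sum.inr ())) (C (k.2.2 : ℝ)))).imp (SA.ne_zero (ι := ι ⊕ Unit) (Qd (k.1 + 1)))).forall_real hp
    refine (h1.inter h2).of_eq ?_
    ext x
    simp only [hE, mem_inter_iff, mem_ofPred_eq, eval_C, eval_X, Sum.elim_inr, Sum.elim_comp_inl,
      Sum.elim_comp_inr, pt]
    constructor
    · rintro ⟨⟨t, ⟨⟨⟨hA, ht⟩, h0⟩, ha⟩, hb⟩, h⟩
      have : t = f x := congrFun ht ()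
      subst this
      exact ⟨hA, h0, ha, hb, h⟩
    · rintro ⟨hA, h0, ha, hb, h⟩
      exact ⟨⟨f x, ⟨⟨⟨hA, rfl⟩, h0⟩, ha⟩, hb⟩, h⟩
  have hcov : ∀ x ∈ V₀, ∃ k, x ∈ E k := by
    intro x hx
    have hex : ∃ m, eval (pt x (f x)) (Qd m) ≠ 0 := by
      by_contra hall
      push Not at hall
      obtain ⟨M, hM⟩ := exists_pderiv_iterate_eq_zero (Sum.inr ()) Q
      have : ∀ j, j ≤ M → ∀ t, eval (pt x t) (Qd (M - j)) = 0 := by
        intro j
        induction j with
        | zero => intro _ t; simp [hQd, hM]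
        | succ j ih =>
          intro hj t
          have hd : ∀ s, HasDerivAt (fun s => eval (pt x s) (Qd (M - (j + 1)))) 0 s := fun s => by
            have := hder (M - (j + 1)) x s
            rwa [show M - (j + 1) + 1 = M - j by omega, ih (by omega) s] at this
          rw [← hall (M - (j + 1))]
          exact is_const_of_deriv_eq_zero (fun s => (hd s).differentiableAt)
            (fun s => (hd s).deriv) _ _
      exact hx.2 fun t => by simpa [hQd] using this M le_rfl t
    obtain ⟨m, hm, hm'⟩ : ∃ m, eval (pt x (f x)) (Qd m) = 0 ∧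
        eval (pt x (f x)) (Qd (m + 1)) ≠ 0 := by
      have h0 : Nat.find hex ≠ 0 := fun h => Nat.find_spec hex (by
        rw [h]; exact hQ0 _ ⟨by simpa [pt] using hVA hx.1, by simp [pt]⟩)
      refine ⟨Nat.find hex - 1, ?_, ?_⟩
      · exact not_not.1 (Nat.find_min hex (by omega))
      · rw [show Nat.find hex - 1 + 1 = Nat.find hex by omega]
        exact Nat.find_spec hex
    obtain ⟨d, hd, hd'⟩ := Metric.eventually_nhds_iff.1
      ((hder (m + 1) x (f x)).continuousAt.eventually_ne hm')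
    obtain ⟨a, ha, ha'⟩ := exists_rat_btwn (show f x - d < f x by linarith)
    obtain ⟨b, hb, hb'⟩ := exists_rat_btwn (show f x < f x + d by linarith)
    exact ⟨(m, a, b), hVA hx.1, hm, ha', hb, fun t ht => hd' (by
      rw [Real.dist_eq, abs_lt]; exact ⟨by linarith [ht.1], by linarith [ht.2]⟩)⟩
  -- one of them has interior
  obtain ⟨k, hk⟩ : ∃ k, (interior (E k) ∩ V₀).Nonempty := by
    by_contra h
    push Not at h
    set S : ℕ × ℚ × ℚ → Set (ι → ℝ) := fun k => closure (E k \ interior (E k)) with hS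
    have hd : Dense (⋂ k, (S k)ᶜ) := by
      refine dense_iInter_of_isOpen (fun k => isClosed_closure.isOpen_compl) fun k => ?_
      rw [← interior_eq_empty_iff_dense_compl]
      refine hi ι _ ((hESA k).diff ((hESA k).interior' hp)) (eq_empty_iff_forall_notMem.2 ?_)
      intro y hy
      exact (interior_subset hy).2 (interior_mono sdiff_subset hy)
    obtain ⟨x, hx, hx'⟩ := hd.inter_open_nonempty V₀ hV₀o hV₀ne
    obtain ⟨k, hk⟩ := hcov x hx
    exact Set.mem_iInter.1 hx' k
      (subset_closure ⟨hk, fun hi' => Set.notMem_empty x (h k ▸ ⟨hi', hx⟩)⟩)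
  obtain ⟨m, a, b⟩ := k
  refine ⟨interior (E (m, a, b)) ∩ V₀, fun x hx => hx.2.1, isOpen_interior.inter hV₀o, hk,
    fun x hx => ?_⟩
  obtain ⟨-, h0, hxa, hxb, hS⟩ := interior_subset hx.1
  set F : (ι → ℝ) × ℝ → ℝ := fun u => eval (pt u.1 u.2) (Qd m) with hF
  have hFd : ContDiff ℝ (⊤ : ℕ∞) F := by
    refine (contDiff_eval_poly (Qd m)).comp (contDiff_pi.2 fun i => ?_)
    rcases i with i | u
    · exact (contDiff_apply ℝ ℝ i).comp contDiff_fst
    · exact contDiff_snd
  have hc := hFd.contDiffAt (x := (x, f x))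
  have hinv : (fderiv ℝ F (x, f x) ∘L .inr ℝ (ι → ℝ) ℝ).IsInvertible := by
    have h1 := (hFd.differentiable (by simp) (x, f x)).hasFDerivAt.comp_hasDerivAt (f x)
      (show HasDerivAt (fun s : ℝ => (x, s)) (0, 1) (f x) from
        (hasDerivAt_const (f x) x).prodMk (hasDerivAt_id' (f x)))
    have h2 := h1.unique (hder m x (f x))
    have h3 : eval (pt x (f x)) (Qd (m + 1)) ≠ 0 := hS _ ⟨hxa.le, hxb.le⟩
    refine ⟨ContinuousLinearEquiv.unitsEquivAut ℝ (Units.mk0 _ h3), ?_⟩
    ext
    simp [← h2]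
  have hn : ((⊤ : ℕ∞) : WithTop ℕ∞) ≠ 0 := by simp
  set φ := hc.implicitFunction hn hinv with hφ
  have hsmooth : ContDiffAt ℝ (⊤ : ℕ∞) φ x := hc.contDiffAt_implicitFunction hn hinv
  refine hsmooth.congr_of_eventuallyEq ?_
  have hφx : φ x = f x := hc.implicitFunction_apply_self hn hinv
  filter_upwards [hc.eventually_apply_implicitFunction hn hinv,
    hsmooth.continuousAt.eventually (IsOpen.mem_nhds isOpen_Ioo
      (show φ x ∈ Ioo (a : ℝ) b by rw [hφx]; exact ⟨hxa, hxb⟩)),
    isOpen_interior.mem_nhds hx.1] with y hy1 hy2 hy3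
  obtain ⟨-, g0, gya, gyb, gS⟩ := interior_subset hy3
  have hy0 : eval (pt y (φ y)) (Qd m) = 0 := hy1.trans h0
  by_contra hne'
  obtain ⟨lo, hi', hlt, hlo, hhi, e1, e2⟩ : ∃ lo hi' : ℝ, lo < hi' ∧ (a : ℝ) ≤ lo ∧ hi' ≤ b ∧
      eval (pt y lo) (Qd m) = 0 ∧ eval (pt y hi') (Qd m) = 0 := by
    rcases lt_or_gt_of_ne hne' with h | h
    · exact ⟨f y, φ y, h, gya.le, hy2.2.le, g0, hy0⟩
    · exact ⟨φ y, f y, h, hy2.1.le, gyb.le, hy0, g0⟩
  obtain ⟨c, hc', hc0⟩ := exists_hasDerivAt_eq_zero hlt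
    (fun s _ => (hder m y s).continuousAt.continuousWithinAt) (e1.trans e2.symm)
    fun s _ => hder m y s
  exact gS c ⟨by linarith [hc'.1], by linarith [hc'.2]⟩ hc0

/-- A semialgebraic function on an open set is smooth on a dense open subset. -/
theorem SAFun.exists_smooth {A : Set (ι → ℝ)} {f : (ι → ℝ) → ℝ} (hA : IsOpen A) (hf : SAFun A f) :
    ∃ W ⊆ A, IsOpen W ∧ A ⊆ closure W ∧ ∀ x ∈ W, ContDiffAt ℝ (⊤ : ℕ∞) f x := by
  refine ⟨⋃ W ∈ {W : Set (ι → ℝ) | IsOpen W ∧ W ⊆ A ∧ ∀ x ∈ W, ContDiffAt ℝ (⊤ : ℕ∞) f x}, W,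
    iUnion₂_subset fun W hW => hW.2.1, isOpen_biUnion fun W hW => hW.1, fun x hx => ?_, ?_⟩
  · rw [mem_closure_iff]
    intro U hU hxU
    obtain ⟨W, hWU, hWo, ⟨y, hy⟩, hWs⟩ := SAFun.exists_smooth_subset hp hi hf (hU.inter hA)
      inter_subset_right ⟨x, hxU, hx⟩
    exact ⟨y, (hWU hy).1, Set.mem_biUnion (t := fun W => W)
      ⟨hWo, hWU.trans inter_subset_right, hWs⟩ hy⟩
  · intro x hx
    simp only [mem_iUnion, exists_prop] at hx
    obtain ⟨W, hW, hxW⟩ := hx
    exact hW.2.2 x hxW

end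

end Vale.Agent.P274.Full
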