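import Vale.Agent.P274.Full.Tool.Formula
import Mathlib.Analysis.Calculus.LineDeriv.Basic

/-!
Semialgebraic maps, functions and their derivatives along a direction.
-/

open MvPolynomial Set Filter Topology

namespace Vale.Agent.P274.Full

noncomputable section

variable {ι κ μ : Type} [Fintype ι] [Fintype κ] [Fintype μ]

/-- A semialgebraic real function. -/
def SAFun (A : Set (ι → ℝ)) (f : (ι → ℝ) → ℝ) : Prop :=
  SAMap A fun x (_ : Unit) => f x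

theorem SAMap.congr {A : Set (ι → ℝ)} {f g : (ι → ℝ) → κ → ℝ} (h : SAMap A f)
    (e : EqOn f g A) : SAMap A g :=
  h.of_eq (by
    ext x
    refine and_congr_right fun hx => ?_
    rw [e hx])

theorem SAMap.mono {A B : Set (ι → ℝ)} {f : (ι → ℝ) → κ → ℝ} (h : SAMap A f) (hB : SA B)
    (hs : B ⊆ A) : SAMap B f :=
  (h.inter (hB.reindex Sum.inl)).of_eq (by
    ext x
    simp only [mem_inter_iff, mem_ofPred_eq]
    exact ⟨fun h => ⟨h.2, h.1.2⟩, fun h => ⟨⟨hs h.1, h.2⟩, h.1⟩⟩)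

theorem SAMap.poly {A : Set (ι → ℝ)} (hA : SA A) (q : κ → MvPolynomial ι ℝ) :
    SAMap A fun x i => eval x (q i) :=
  ((hA.reindex Sum.inl).inter (SA.all fun i : κ =>
    SA.eq (X (Sum.inr i)) (rename (Sum.inl : ι → ι ⊕ κ) (q i)))).of_eq (by
      ext x
      simp [eval_rename, funext_iff])

theorem SAMap.elim {A : Set (ι → ℝ)} {f : (ι → ℝ) → κ → ℝ} {g : (ι → ℝ) → μ → ℝ}
    (hf : SAMap A f) (hg : SAMap A g) : SAMap A fun x => Sum.elim (f x) (g x) :=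
  ((hf.reindex (Sum.map id Sum.inl)).inter (hg.reindex (Sum.map id Sum.inr))).of_eq (by
    ext x
    simp only [mem_inter_iff, mem_ofPred_eq, Function.comp_def, funext_iff, Sum.forall, Sum.map_inl, Sum.map_inr, id]
    simp only [Sum.elim_inl, Sum.elim_inr]
    tauto)

theorem SAFun.compPoly {A : Set (ι → ℝ)} {f : (ι → ℝ) → ℝ} (hf : SAFun A f) {B : Set (κ → ℝ)}
    (hB : SA B) (q : ι → MvPolynomial κ ℝ) (hs : ∀ y ∈ B, (fun i => eval y (q i)) ∈ A) :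
    SAFun B fun y => f fun i => eval y (q i) :=
  ((hB.reindex Sum.inl).inter (hf.preimage (Sum.elim (fun i => rename Sum.inl (q i))
    fun u => X (Sum.inr u)))).of_eq (by
      ext x
      simp only [mem_inter_iff, mem_ofPred_eq, Function.comp_def, Sum.elim_inl, Sum.elim_inr,
        eval_rename, eval_X]
      exact ⟨fun h => ⟨h.1, h.2.2⟩, fun h => ⟨h.1, hs _ h.1, h.2⟩⟩)

theorem SAFun.poly {A : Set (ι → ℝ)} (hA : SA A) (q : MvPolynomial ι ℝ) :
    SAFun A fun x => eval x q :=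
  SAMap.poly hA fun _ => q

theorem SAFun.congr {A : Set (ι → ℝ)} {f g : (ι → ℝ) → ℝ} (h : SAFun A f) (e : EqOn f g A) :
    SAFun A g :=
  SAMap.congr h fun _ hx => funext fun _ => e hx

variable (hp : SAProjStmt)
include hp

theorem SAMap.preimage {A : Set (ι → ℝ)} {f : (ι → ℝ) → κ → ℝ} (hf : SAMap A f)
    {T : Set (κ → ℝ)} (hT : SA T) : SA {x | x ∈ A ∧ f x ∈ T} :=
  ((hf.inter (hT.reindex Sum.inr)).exists' hp).of_eq (by
    ext x
    simp only [mem_inter_iff, mem_ofPred_eq, Sum.elim_comp_inl, Sum.elim_comp_inr]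
    exact ⟨fun ⟨t, ⟨h1, h2⟩, h3⟩ => ⟨h1, h2 ▸ h3⟩, fun h => ⟨f x, ⟨h.1, rfl⟩, h.2⟩⟩)

theorem SAMap.dom {A : Set (ι → ℝ)} {f : (ι → ℝ) → κ → ℝ} (hf : SAMap A f) : SA A :=
  (hf.preimage hp SA.univ).of_eq (by simp)

theorem SAMap.image {A : Set (ι → ℝ)} {f : (ι → ℝ) → κ → ℝ} (hf : SAMap A f)
    {B : Set (ι → ℝ)} (hB : SA B) (hs : B ⊆ A) : SA (f '' B) :=
  (((hf.mono hB hs).reindex (Sum.swap : ι ⊕ κ → κ ⊕ ι)).exists' hp).of_eq (by
    ext y
    simp only [mem_ofPred_eq, mem_image, Function.comp_def, Sum.swap_inl, Sum.swap_inr,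
      Sum.elim_inl, Sum.elim_inr]
    exact ⟨fun ⟨t, h1, h2⟩ => ⟨t, h1, h2.symm⟩, fun ⟨t, h1, h2⟩ => ⟨t, h1, h2.symm⟩⟩)

theorem SAMap.comp {A : Set (ι → ℝ)} {f : (ι → ℝ) → κ → ℝ} {B : Set (κ → ℝ)}
    {g : (κ → ℝ) → μ → ℝ} (hf : SAMap A f) (hg : SAMap B g) (hs : MapsTo f A B) :
    SAMap A fun x => g (f x) :=
  (((hf.reindex (Sum.elim (fun i => Sum.inl (Sum.inl i)) Sum.inr :
      ι ⊕ κ → (ι ⊕ μ) ⊕ κ)).inter
    (hg.reindex (Sum.elim Sum.inr fun l => Sum.inl (Sum.inr l) :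
      κ ⊕ μ → (ι ⊕ μ) ⊕ κ))).exists' hp).of_eq (by
    ext x
    simp only [mem_inter_iff, mem_ofPred_eq, Function.comp_def, Sum.elim_inl, Sum.elim_inr]
    constructor
    · rintro ⟨t, ⟨h1, h2⟩, -, h3⟩
      exact ⟨h1, h3.trans (by rw [show (fun i => t i) = t from rfl] at *; rw [h2])⟩
    · rintro ⟨h1, h2⟩
      exact ⟨f fun i => x (Sum.inl i), ⟨h1, rfl⟩, hs h1, h2⟩)

theorem SAFun.op₂ {A : Set (ι → ℝ)} {f g : (ι → ℝ) → ℝ} (hf : SAFun A f) (hg : SAFun A g)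
    (q : MvPolynomial (Unit ⊕ Unit) ℝ) :
    SAFun A fun x => eval (Sum.elim (fun _ => f x) fun _ => g x) q :=
  SAMap.comp hp (SAMap.elim hf hg) (SAMap.poly SA.univ fun _ : Unit => q) (mapsTo_univ _ _)

theorem SAFun.add {A : Set (ι → ℝ)} {f g : (ι → ℝ) → ℝ} (hf : SAFun A f) (hg : SAFun A g) :
    SAFun A fun x => f x + g x :=
  (hf.op₂ hp hg (X (Sum.inl ()) + X (Sum.inr ()))).congr fun x _ => by simp

theorem SAFun.sub {A : Set (ι → ℝ)} {f g : (ι → ℝ) → ℝ} (hf : SAFun A f) (hg : SAFun A g) :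
    SAFun A fun x => f x - g x :=
  (hf.op₂ hp hg (X (Sum.inl ()) - X (Sum.inr ()))).congr fun x _ => by simp

theorem SAFun.mul {A : Set (ι → ℝ)} {f g : (ι → ℝ) → ℝ} (hf : SAFun A f) (hg : SAFun A g) :
    SAFun A fun x => f x * g x :=
  (hf.op₂ hp hg (X (Sum.inl ()) * X (Sum.inr ()))).congr fun x _ => by simp

theorem SAFun.lt {A : Set (ι → ℝ)} {f g : (ι → ℝ) → ℝ} (hf : SAFun A f) (hg : SAFun A g) :
    SA {x | x ∈ A ∧ f x < g x} :=
  ((SAMap.elim hf hg).preimage hp (SA.lt (X (Sum.inl ())) (X (Sum.inr ())))).of_eq (by simp)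

theorem SAFun.le {A : Set (ι → ℝ)} {f g : (ι → ℝ) → ℝ} (hf : SAFun A f) (hg : SAFun A g) :
    SA {x | x ∈ A ∧ f x ≤ g x} :=
  ((SAMap.elim hf hg).preimage hp (SA.le (X (Sum.inl ())) (X (Sum.inr ())))).of_eq (by simp)

theorem SAFun.eq {A : Set (ι → ℝ)} {f g : (ι → ℝ) → ℝ} (hf : SAFun A f) (hg : SAFun A g) :
    SA {x | x ∈ A ∧ f x = g x} :=
  ((SAMap.elim hf hg).preimage hp (SA.eq (X (Sum.inl ())) (X (Sum.inr ())))).of_eq (by simp)

/-- A coordinate of a semialgebraic map. -/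
theorem SAMap.apply {A : Set (ι → ℝ)} {f : (ι → ℝ) → κ → ℝ} (hf : SAMap A f) (j : κ) :
    SAFun A fun x => f x j :=
  (hf.comp hp (SAMap.poly SA.univ fun _ : Unit => X j) (mapsTo_univ _ _)).congr
    fun x _ => by simp

/-- Differentiability along a direction and the derivative are semialgebraic on an open set. -/
theorem SAFun.lineDeriv' {A : Set (ι → ℝ)} {f : (ι → ℝ) → ℝ} (hA : IsOpen A) (hf : SAFun A f)
    (v : ι → ℝ) : SA {x | x ∈ A ∧ LineDifferentiableAt ℝ f x v} ∧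
      SAFun {x | x ∈ A ∧ LineDifferentiableAt ℝ f x v} fun x => lineDeriv ℝ f x v := by
  -- coordinates: point, value of the derivative, tolerance, radius, increment
  let x' : ι → (((ι ⊕ Unit) ⊕ Unit) ⊕ Unit) ⊕ Unit := fun i => .inl (.inl (.inl (.inl i)))
  let d' : (((ι ⊕ Unit) ⊕ Unit) ⊕ Unit) ⊕ Unit := .inl (.inl (.inl (.inr ())))
  let e' : (((ι ⊕ Unit) ⊕ Unit) ⊕ Unit) ⊕ Unit := .inl (.inl (.inr ()))
  let r' : (((ι ⊕ Unit) ⊕ Unit) ⊕ Unit) ⊕ Unit := .inl (.inr ())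
  let s' : (((ι ⊕ Unit) ⊕ Unit) ⊕ Unit) ⊕ Unit := .inr ()
  have hdom : SA A := SAMap.dom hp hf
  let q₁ : ι → MvPolynomial ((((ι ⊕ Unit) ⊕ Unit) ⊕ Unit) ⊕ Unit) ℝ := fun i => X (x' i)
  let q₂ : ι → MvPolynomial ((((ι ⊕ Unit) ⊕ Unit) ⊕ Unit) ⊕ Unit) ℝ :=
    fun i => X (x' i) + C (v i) * X s'
  have hB := (hdom.preimage q₁).inter (hdom.preimage q₂)
  have h₁ := hf.compPoly hB q₁ fun y hy => hy.1
  have h₂ := hf.compPoly hB q₂ fun y hy => hy.2
  have hd := ((h₂.sub hp h₁).sub hp (SAFun.poly hB (X s' * X d')))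
  have hQ := (hd.mul hp hd).lt hp (SAFun.poly hB (X e' ^ 2 * X s' ^ 2))
  have hP := (SA.eq_zero (X s')).compl.inter (SA.lt (X s' ^ 2) (X r' ^ 2))
  have hG := ((((((hP.imp hQ).forall_real hp).inter (SA.coord_pos (Sum.inr ()))).exists_real hp)
    |> (SA.coord_pos (Sum.inr ())).imp).forall_real hp).inter (hdom.reindex Sum.inl)
  have key : SA {y : ι ⊕ Unit → ℝ |
      y ∘ Sum.inl ∈ A ∧ HasLineDerivAt ℝ f (y (Sum.inr ())) (y ∘ Sum.inl) v} := by
    refine hG.of_eq ?_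
    ext y
    simp only [mem_inter_iff, mem_ofPred_eq, Sum.elim_inr, Sum.elim_inl,
      Function.comp_def, q₁, q₂, x', d', e', r', s', map_add, map_mul, map_pow, eval_X, eval_C]
    rw [and_comm]
    refine and_congr_right fun hy => ?_
    rw [HasLineDerivAt, hasDerivAt_iff_tendsto_slope, Metric.tendsto_nhdsWithin_nhds]
    have hnear : ∀ᶠ s in 𝓝 (0 : ℝ), (fun i => y (Sum.inl i)) + s • v ∈ A :=
      (Continuous.tendsto' (by fun_prop) _ _ (by simp)).eventually (hA.mem_nhds hy)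
    obtain ⟨r₀, hr₀, hr₁⟩ := Metric.eventually_nhds_iff.1 hnear
    have hvec : ∀ s : ℝ, (fun i => y (Sum.inl i) + v i * s) =
        (fun i => y (Sum.inl i)) + s • v := fun s => by
      funext i; simp [mul_comm]
    simp only [hvec]
    refine forall₂_congr fun e he => ?_
    constructor
    · rintro ⟨r, h, hr⟩
      refine ⟨r, hr, fun {s} hs0 hsr => ?_⟩
      have hs : s ≠ 0 := hs0
      rw [Real.dist_eq, sub_zero] at hsr
      obtain ⟨-, h3⟩ := h s ⟨hs, show s ^ 2 < r ^ 2 by rw [sq_lt_sq, abs_of_pos hr]; exact hsr⟩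
      rw [Real.dist_eq, slope_def_field, sub_zero, zero_smul, add_zero, div_sub' hs, abs_div,
        div_lt_iff₀ (abs_pos.2 hs)]
      rw [← sq, ← mul_pow, sq_lt_sq, abs_mul, abs_of_pos he] at h3
      exact h3
    · rintro ⟨r, hr, h⟩
      refine ⟨min r r₀, fun s hs => ?_, lt_min hr hr₀⟩
      obtain ⟨hs, hsr⟩ := hs
      change s ≠ 0 at hs
      change s ^ 2 < (min r r₀) ^ 2 at hsr
      rw [sq_lt_sq, abs_of_pos (lt_min hr hr₀), lt_min_iff] at hsr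
      refine ⟨⟨hy, hr₁ (by rw [Real.dist_eq, sub_zero]; exact hsr.2)⟩, ?_⟩
      have h3 := h (show s ∈ ({0} : Set ℝ)ᶜ from hs) (by rw [Real.dist_eq, sub_zero]; exact hsr.1)
      rw [Real.dist_eq, slope_def_field, sub_zero, zero_smul, add_zero, div_sub' hs, abs_div,
        div_lt_iff₀ (abs_pos.2 hs)] at h3
      rw [← sq, ← mul_pow, sq_lt_sq, abs_mul, abs_of_pos he]
      exact h3
  constructor
  · refine (key.exists_real hp).of_eq ?_
    ext x
    simp only [mem_ofPred_eq, Sum.elim_comp_inl, Sum.elim_inr]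
    exact ⟨fun ⟨d, h, hd⟩ => ⟨h, hd.lineDifferentiableAt⟩,
      fun h => ⟨_, h.1, h.2.hasLineDerivAt⟩⟩
  · refine key.of_eq ?_
    ext y
    simp only [mem_ofPred_eq]
    refine ⟨fun h => ⟨⟨h.1, h.2.lineDifferentiableAt⟩, funext fun _ => h.2.lineDeriv.symm⟩,
      fun h => ⟨h.1.1, ?_⟩⟩
    have := congrFun h.2 ()
    simp only [Function.comp_apply] at this
    rw [this]
    exact h.1.2.hasLineDerivAt

end

end Vale.Agent.P274.Full
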