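import Vale.Agent.P274.Full.SA.Basic
import Vale.Agent.P274.Full.Stmts

/-!
Quantifiers and topological operations on semialgebraic sets.
-/

open MvPolynomial Set

namespace Vale.Agent.P274.Full

noncomputable section

variable {ι κ : Type} [Fintype ι] [Fintype κ]

theorem SA.of_eq {S T : Set (ι → ℝ)} (h : SA S) (e : S = T) : SA T := e ▸ h

theorem SA.imp {p q : (ι → ℝ) → Prop} (h : SA {x | p x}) (h' : SA {x | q x}) :
    SA {x | p x → q x} :=
  (h.compl.union h').of_eq (by ext x; simp [imp_iff_not_or])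

theorem SA.and {p q : (ι → ℝ) → Prop} (h : SA {x | p x}) (h' : SA {x | q x}) :
    SA {x | p x ∧ q x} :=
  h.inter h'

theorem SA.all {α : Type*} [Finite α] {S : α → Set (ι → ℝ)} (h : ∀ a, SA (S a)) :
    SA {x | ∀ a, x ∈ S a} :=
  (SA.iInter h).of_eq (by ext x; simp)

theorem SA.coord_pos (i : ι) : SA {x : ι → ℝ | 0 < x i} := (SA.pos (X i)).of_eq (by simp)

variable (hp : SAProjStmt)
include hp

theorem SA.exists' {S : Set (ι ⊕ κ → ℝ)} (h : SA S) :
    SA {x : ι → ℝ | ∃ t : κ → ℝ, Sum.elim x t ∈ S} := hp ι κ S h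

theorem SA.forall' {S : Set (ι ⊕ κ → ℝ)} (h : SA S) :
    SA {x : ι → ℝ | ∀ t : κ → ℝ, Sum.elim x t ∈ S} :=
  (h.compl.exists' hp).compl.of_eq (by ext x; simp)

theorem SA.exists_real {S : Set (ι ⊕ Unit → ℝ)} (h : SA S) :
    SA {x : ι → ℝ | ∃ t : ℝ, Sum.elim x (fun _ => t) ∈ S} :=
  (h.exists' hp).of_eq (by
    ext x
    exact ⟨fun ⟨t, ht⟩ => ⟨t (), ht⟩, fun ⟨t, ht⟩ => ⟨fun _ => t, ht⟩⟩)

theorem SA.forall_real {S : Set (ι ⊕ Unit → ℝ)} (h : SA S) :
    SA {x : ι → ℝ | ∀ t : ℝ, Sum.elim x (fun _ => t) ∈ S} :=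
  (h.compl.exists_real hp).compl.of_eq (by ext x; simp)

theorem SA.closure' {S : Set (ι → ℝ)} (h : SA S) : SA (closure S) := by
  have h1 : SA {z : (ι ⊕ Unit) ⊕ ι → ℝ | z ∘ Sum.inr ∈ S ∧ ∀ i, z ∈ {z : (ι ⊕ Unit) ⊕ ι → ℝ |
      (z (Sum.inr i) - z (Sum.inl (Sum.inl i))) ^ 2 < z (Sum.inl (Sum.inr ())) ^ 2}} :=
    (h.reindex Sum.inr).inter (SA.all fun i =>
      (SA.lt ((X (Sum.inr i) - X (Sum.inl (Sum.inl i))) ^ 2)
        (X (Sum.inl (Sum.inr ())) ^ 2)).of_eq (by simp))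
  refine (((SA.coord_pos (Sum.inr ())).imp (h1.exists' hp)).forall_real hp).of_eq ?_
  ext x
  simp only [Function.comp_def, mem_ofPred_eq, Sum.elim_inr, Sum.elim_inl]
  rw [Metric.mem_closure_iff]
  refine forall₂_congr fun e he => ?_
  constructor
  · rintro ⟨t, ht, h2⟩
    refine ⟨t, ht, (dist_pi_lt_iff he).2 fun i => ?_⟩
    have := sq_lt_sq.1 (h2 i)
    rw [Real.dist_eq, abs_sub_comm]
    rwa [abs_of_pos he] at this
  · rintro ⟨t, ht, h2⟩
    refine ⟨t, ht, fun i => sq_lt_sq.2 ?_⟩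
    have := (dist_pi_lt_iff he).1 h2 i
    rw [Real.dist_eq, abs_sub_comm] at this
    rwa [abs_of_pos he]

theorem SA.interior' {S : Set (ι → ℝ)} (h : SA S) : SA (interior S) :=
  (h.compl.closure' hp).compl.of_eq interior_eq_compl_closure_compl.symm

theorem SA.frontier' {S : Set (ι → ℝ)} (h : SA S) : SA (frontier S) :=
  (h.closure' hp).diff (h.interior' hp)

end

end Vale.Agent.P274.Full
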