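import Vale.Agent.P274.Full.Tool.Smooth
import Mathlib.Analysis.Calculus.Deriv.MeanValue
import Mathlib.Analysis.Calculus.Deriv.Shift

/-!
Semialgebraic functions of one variable near `0+`.
-/

open MvPolynomial Set Filter Topology

namespace Vale.Agent.P274.Full

noncomputable section

/-- A semialgebraic set of reals contains all small positive numbers or none. -/
theorem SA.tail (ht : SATailStmt) {S : Set (Unit → ℝ)} (hS : SA S) :
    (∀ᶠ t in 𝓝[>] (0 : ℝ), (fun _ : Unit => t) ∈ S) ∨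
      ∀ᶠ t in 𝓝[>] (0 : ℝ), (fun _ : Unit => t) ∉ S := by
  simpa [Function.comp_def] using
    ht Empty {x : Empty ⊕ Unit → ℝ | x ∘ Sum.inr ∈ S} (hS.reindex Sum.inr) Empty.elim

theorem lineDifferentiableAt_unit {f : ℝ → ℝ} {t : ℝ} :
    LineDifferentiableAt ℝ (fun x : Unit → ℝ => f (x ())) (fun _ => t) (fun _ => 1) ↔
      DifferentiableAt ℝ f t := by
  rw [LineDifferentiableAt]
  simp only [Pi.add_apply, Pi.smul_apply, smul_eq_mul, mul_one]
  rw [differentiableAt_comp_add_left, add_zero]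

theorem lineDeriv_unit {f : ℝ → ℝ} {t : ℝ} :
    lineDeriv ℝ (fun x : Unit → ℝ => f (x ())) (fun _ => t) (fun _ => 1) = deriv f t := by
  rw [lineDeriv]
  simp only [Pi.add_apply, Pi.smul_apply, smul_eq_mul, mul_one]
  rw [deriv_comp_const_add, add_zero]

variable (hp : SAProjStmt) (hi : SAInteriorStmt) (ht : SATailStmt)
include hp hi ht

/-- A semialgebraic function on `(0, c)` is differentiable and monotone near `0`. -/
theorem SAFun.tail {c : ℝ} (hc : 0 < c) {f : ℝ → ℝ}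
    (hf : SAFun {x : Unit → ℝ | x () ∈ Ioo (0 : ℝ) c} fun x => f (x ())) :
    ∃ c' ∈ Ioc 0 c, DifferentiableOn ℝ f (Ioo 0 c') ∧
      (MonotoneOn f (Ioo 0 c') ∨ AntitoneOn f (Ioo 0 c')) := by
  set A := {x : Unit → ℝ | x () ∈ Ioo (0 : ℝ) c} with hAdef
  have hA : IsOpen A := isOpen_Ioo.preimage (continuous_apply ())
  obtain ⟨hdiff, hderiv⟩ := SAFun.lineDeriv' hp hA hf (fun _ => 1)
  have hmem : ∀ᶠ t in 𝓝[>] (0 : ℝ), t ∈ Ioo 0 c := Ioo_mem_nhdsGT hc
  have hd : ∀ᶠ t in 𝓝[>] (0 : ℝ), DifferentiableAt ℝ f t := by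
    rcases SA.tail ht hdiff with h | h
    · exact h.mono fun t ht => lineDifferentiableAt_unit.1 ht.2
    exfalso
    obtain ⟨c', hc', hsub⟩ := mem_nhdsGT_iff_exists_Ioo_subset.1 (hmem.and h)
    rw [mem_Ioi] at hc'
    set V := {x : Unit → ℝ | x () ∈ Ioo 0 c'} with hV
    obtain ⟨W, hWV, -, ⟨x, hx⟩, hsm⟩ := SAFun.exists_smooth_subset hp hi hf (V := V)
      (isOpen_Ioo.preimage (continuous_apply ())) (fun x hx => (hsub hx).1)
      ⟨fun _ => c' / 2, by simp [hV, hc']⟩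
    obtain ⟨h1, h2⟩ := hsub (hWV hx)
    refine h2 ⟨h1, ?_⟩
    rw [show (fun _ : Unit => x ()) = x from rfl]
    exact ((hsm x hx).differentiableAt (by simp)).lineDifferentiableAt
  have hzero : SAFun {x | x ∈ A ∧ LineDifferentiableAt ℝ (fun x : Unit → ℝ => f (x ())) x
      fun _ => 1} fun _ => (0 : ℝ) :=
    (SAFun.poly hdiff (MvPolynomial.C 0)).congr fun x _ => by simp
  rcases SA.tail ht (hzero.le hp hderiv) with h | h
  · obtain ⟨c', hc', hsub⟩ := mem_nhdsGT_iff_exists_Ioo_subset.1 ((hmem.and hd).and h)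
    rw [mem_Ioi] at hc'
    refine ⟨min c' c, ⟨lt_min hc' hc, min_le_right _ _⟩, ?_⟩
    have hs : ∀ t ∈ Ioo 0 (min c' c), DifferentiableAt ℝ f t ∧ 0 ≤ deriv f t := fun t ht => by
      obtain ⟨⟨-, h1⟩, -, h2⟩ := hsub ⟨ht.1, ht.2.trans_le (min_le_left _ _)⟩
      exact ⟨h1, by rwa [lineDeriv_unit] at h2⟩
    refine ⟨fun t ht => (hs t ht).1.differentiableWithinAt, Or.inl ?_⟩
    refine monotoneOn_of_deriv_nonneg (convex_Ioo _ _)
      (fun t ht => (hs t ht).1.continuousAt.continuousWithinAt)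
      (fun t ht => (hs t (interior_subset ht)).1.differentiableWithinAt) fun t ht => ?_
    exact (hs t (interior_subset ht)).2
  · obtain ⟨c', hc', hsub⟩ := mem_nhdsGT_iff_exists_Ioo_subset.1 ((hmem.and hd).and h)
    rw [mem_Ioi] at hc'
    refine ⟨min c' c, ⟨lt_min hc' hc, min_le_right _ _⟩, ?_⟩
    have hs : ∀ t ∈ Ioo 0 (min c' c), DifferentiableAt ℝ f t ∧ deriv f t ≤ 0 := fun t ht => by
      obtain ⟨⟨h0, h1⟩, h2⟩ := hsub ⟨ht.1, ht.2.trans_le (min_le_left _ _)⟩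
      refine ⟨h1, le_of_not_gt fun h3 => h2 ⟨⟨h0, lineDifferentiableAt_unit.2 h1⟩, ?_⟩⟩
      rw [lineDeriv_unit]
      exact h3.le
    refine ⟨fun t ht => (hs t ht).1.differentiableWithinAt, Or.inr ?_⟩
    refine antitoneOn_of_deriv_nonpos (convex_Ioo _ _)
      (fun t ht => (hs t ht).1.continuousAt.continuousWithinAt)
      (fun t ht => (hs t (interior_subset ht)).1.differentiableWithinAt) fun t ht => ?_
    exact (hs t (interior_subset ht)).2

/-- A bounded semialgebraic function on `(0, c)` has a limit at `0+`. -/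
theorem SAFun.exists_limit {c : ℝ} (hc : 0 < c) {f : ℝ → ℝ}
    (hf : SAFun {x : Unit → ℝ | x () ∈ Ioo (0 : ℝ) c} fun x => f (x ())) {M : ℝ}
    (hM : ∀ t ∈ Ioo 0 c, |f t| ≤ M) : ∃ l, Tendsto f (𝓝[>] 0) (𝓝 l) := by
  obtain ⟨c', ⟨hc', hcc⟩, -, hmono⟩ := SAFun.tail hp hi ht hc hf
  have hsub : Ioo 0 c' ⊆ Ioo 0 c := Ioo_subset_Ioo_right hcc
  rcases hmono with h | h
  · exact ⟨_, MonotoneOn.tendsto_nhdsWithin_Ioo_right (nonempty_Ioo.2 hc') h
      ⟨-M, by rintro _ ⟨t, ht, rfl⟩; exact (abs_le.1 (hM t (hsub ht))).1⟩⟩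
  · have h' := MonotoneOn.tendsto_nhdsWithin_Ioo_right (nonempty_Ioo.2 hc')
      (f := fun t => -f t) (fun a ha b hb hab => neg_le_neg (h ha hb hab))
      ⟨-M, by rintro _ ⟨t, ht, rfl⟩; exact neg_le_neg (abs_le.1 (hM t (hsub ht))).2⟩
    exact ⟨_, by simpa using h'.neg⟩

end

end Vale.Agent.P274.Full
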